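import Mathlib
import Vale.Agent.P252.Entire

open scoped ContDiff

namespace Vale.Agent.Results.P252.EntireGraphs

/-- The affine Bernstein conjecture fails for entire graphs in every dimension `n ≥ 10`. -/
theorem result (n : ℕ) (hn : 10 ≤ n) :
    ∃ u : EuclideanSpace ℝ (Fin n) → ℝ, ContDiff ℝ ∞ u ∧
      (∀ x, (Vale.Agent.P252.hess u x).PosDef) ∧
      (∀ x, Vale.Agent.P252.affineMaximal u x = 0) ∧
      ¬∃ (A : Matrix (Fin n) (Fin n) ℝ) (b : Fin n → ℝ) (c : ℝ),
        ∀ x, u x = (∑ i, ∑ j, A i j * x i * x j) / 2 + (∑ i, b i * x i) + c := by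
  obtain ⟨k, rfl⟩ : ∃ k, n = k + 1 := ⟨n - 1, by omega⟩
  exact Vale.Agent.P252.exists_entire k (by omega)

end Vale.Agent.Results.P252.EntireGraphs
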